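import Vale.Agent.P181.PL.Defs
import Vale.Agent.P181.SZA2.Main

set_option autoImplicit false

/-!
# P181, PL, P8.2: `w` large and few cells below the second row, spread heavy tail
-/

namespace Vale.Agent.P181.PL8b

open Vale.Agent.P181.T4 (HW ex low ex_of_lt ex_anti)
open Vale.Agent.P181.H280 (plethMult)
open Vale.Agent.P181.H463 (gt)
open Vale.Agent.P181.PL

lemma dn_succ {n : ℕ} (lam : Fin n → ℕ) (j : ℕ) : dn lam j = ex lam j + dn lam (j + 1) :=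
  SZA2.cells_succ j lam

lemma dn_le {n : ℕ} {lam : Fin n → ℕ} (h : Antitone lam) (i d : ℕ) :
    dn lam i ≤ d * ex lam i + dn lam (i + d) := SZA2.cells_le h i d

lemma dn_anti {n : ℕ} (lam : Fin n → ℕ) {i j : ℕ} (h : i ≤ j) : dn lam j ≤ dn lam i := by
  obtain ⟨d, rfl⟩ := Nat.exists_eq_add_of_le h
  induction d with
  | zero => exact le_rfl
  | succ d ih =>
    have := dn_succ lam (i + d)
    have := ih (by omega)
    rw [show i + (d + 1) = i + d + 1 by ring]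
    omega

/-- a spread tail stays when few more rows are removed -/
lemma tail_half {n R L Y : ℕ} {lam : Fin n → ℕ} (h : Antitone lam)
    (hs : Y * ex lam R ≤ dn lam R) (hL : 2 * L ≤ Y) : dn lam R ≤ 2 * dn lam L := by
  rcases Nat.le_total L R with hLR | hLR
  · have := dn_anti lam hLR
    omega
  · obtain ⟨d, rfl⟩ := Nat.exists_eq_add_of_le hLR
    have h1 := dn_le h R d
    have h2 : 2 * d * ex lam R ≤ dn lam R :=
      (Nat.mul_le_mul_right _ (by omega)).trans hs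
    have h3 : 2 * d * ex lam R = 2 * (d * ex lam R) := by ring
    omega

lemma ex_congr {n : ℕ} {lam nu : Fin n → ℕ} (h : ∀ i : Fin n, 1 ≤ (i : ℕ) → nu i = lam i)
    {j : ℕ} (hj : 1 ≤ j) : ex nu j = ex lam j := by
  unfold ex
  split_ifs with h1
  · exact h _ hj
  · rfl

lemma dn_congr {n : ℕ} {lam nu : Fin n → ℕ} (h : ∀ i : Fin n, 1 ≤ (i : ℕ) → nu i = lam i)
    {j : ℕ} (hj : 1 ≤ j) : dn nu j = dn lam j := by
  unfold dn
  apply Finset.sum_congr rfl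
  intro i _
  split_ifs with h1
  · exact h i (hj.trans h1)
  · rfl

lemma low_congr {n : ℕ} {lam nu : Fin n → ℕ} (h : ∀ i : Fin n, 1 ≤ (i : ℕ) → nu i = lam i) :
    low 2 nu = low 2 lam := by
  funext i
  exact ex_congr h (by omega)

/-- The common end of the two cases. -/
lemma finish (hL : LBL) (hD : AsmD) {a b n a0 b0 K P L N : ℕ} {lam nu : Fin n → ℕ}
    (hlam : Antitone lam) (hsum : ∑ i, lam i = a * b) (hn : 2 ≤ n) (hna : n ≤ a) (ha : 2 ≤ a)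
    (hb : b ≤ a ^ 2) (hnu : Antitone nu) (hnus : ∑ i, nu i = a0 * b0) (ha0 : a0 ≤ a)
    (hb0 : b0 ≤ b) (heq : ∀ i : Fin n, 1 ≤ (i : ℕ) → nu i = lam i)
    (hN : N = K * P * 2) (h8 : 8 * a ≤ N) (h1 : 1000 * P ≤ a0) (h2 : a0 ≤ 2000 * P)
    (h3 : 5000 ≤ K) (h4 : 30 * K + 40 ≤ a0) (h5 : 4 * a0 ≤ N) (h6 : b0 ≤ a0 ^ 2)
    (h7 : 3 * (a0 * N) ≤ ex lam 1) (h9 : 2 * b0 + 2 * N + a0 * N ≤ ex lam 1)
    (h10 : 8 * dn lam 2 ≤ a0 * N) (h11 : Real.log a ≤ K) (h12 : 16 * K * Real.log a ≤ L)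
    (h13 : 100 * N * K * Real.log a ≤ dn lam (2 + L)) (h14 : 8 * a * Real.log a ≤ N) :
    plethMult a b n lam ≤ plethMult b a n lam := by
  have hA : (2 : ℝ) ≤ a := by exact_mod_cast ha
  have ha01 : 1 ≤ a0 := by omega
  have hA0 : (1 : ℝ) ≤ a0 := by exact_mod_cast ha01
  have hlog0 : Real.log a0 ≤ Real.log a :=
    Real.log_le_log (by linarith) (by exact_mod_cast ha0)
  have key := hL a0 b0 n a K P L N nu hnu hnus hn hna hN h8 h1 h2 h3 h4 h5 h6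
    (by rw [ex_congr heq le_rfl]; exact h7) (by rw [ex_congr heq le_rfl]; exact h9)
    (by rw [dn_congr heq (by omega)]; exact h10) (hlog0.trans h11) h12
    (by rw [dn_congr heq (by omega)]; exact h13)
  rw [low_congr heq] at key
  refine hD a b n 2 a0 b0 lam nu hlam hsum (by omega) hn hnus ha0 hb0 heq ?_
  -- the first row
  have hex : ex lam 0 + 1 ≤ a ^ 4 := by
    have e1 : ex lam 0 ≤ a * b := by
      rw [← hsum, ex_of_lt lam (show 0 < n by omega)]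
      exact Finset.single_le_sum (f := lam) (fun _ _ => Nat.zero_le _) (Finset.mem_univ _)
    have e2 : a * b ≤ a * a ^ 2 := Nat.mul_le_mul_left _ hb
    have e3 : a * a ^ 2 + 1 ≤ a ^ 4 := by
      have e4 : 1 ≤ a * a ^ 2 := Nat.one_le_iff_ne_zero.2 (by positivity)
      calc a * a ^ 2 + 1 ≤ 2 * (a * a ^ 2) := by omega
        _ ≤ a * (a * a ^ 2) := Nat.mul_le_mul_right _ ha
        _ = a ^ 4 := by ring
    omega
  have hpow : (((ex lam 0 + 1) ^ (a * 2) : ℕ) : ℝ) ≤ Real.exp N := by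
    have e1 : (((ex lam 0 + 1) ^ (a * 2) : ℕ) : ℝ) ≤ ((a : ℝ) ^ 4) ^ (a * 2) := by
      have : (((ex lam 0 + 1 : ℕ)) : ℝ) ≤ (a : ℝ) ^ 4 := by exact_mod_cast hex
      push_cast at this ⊢
      exact pow_le_pow_left₀ (by positivity) this _
    refine e1.trans ?_
    rw [← Real.exp_log (show (0 : ℝ) < ((a : ℝ) ^ 4) ^ (a * 2) by positivity)]
    apply Real.exp_le_exp.2
    rw [Real.log_pow, Real.log_pow]
    push_cast
    linarith
  have hfin : (((ex lam 0 + 1) ^ (a * 2) * gt (n - 2) a (low 2 lam) : ℕ) : ℝ) ≤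
      (plethMult b0 a0 n nu : ℝ) := by
    refine le_trans ?_ key
    push_cast
    push_cast at hpow
    rw [mul_comm]
    exact mul_le_mul_of_nonneg_left hpow (Nat.cast_nonneg _)
  exact_mod_cast hfin

/-- the tail is large -/
lemma tail_big {a b n X R M : ℕ} {lam : Fin n → ℕ} (h : Antitone lam) (hX : 0 < X)
    (hs : X ^ 13 * ex lam R ≤ dn lam R) (hM : 2 * M ≤ X ^ 13)
    (hD : dn lam 2 ≤ X ^ 2600 * dn lam R) (hb : a * X ^ 6000 ≤ b) (hb2 : b ≤ 2 * dn lam 2) :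
    a * X ^ 3400 ≤ 4 * dn lam M := by
  have h1 := tail_half h hs hM
  have h2 : X ^ 2600 * (a * X ^ 3400) ≤ X ^ 2600 * (4 * dn lam M) := by
    calc X ^ 2600 * (a * X ^ 3400) = a * (X ^ 2600 * X ^ 3400) := by
          rw [mul_left_comm]
      _ = a * X ^ 6000 := by rw [← pow_add]
      _ ≤ b := hb
      _ ≤ 2 * dn lam 2 := hb2
      _ ≤ 2 * (X ^ 2600 * dn lam R) := Nat.mul_le_mul_left _ hD
      _ ≤ 2 * (X ^ 2600 * (2 * dn lam M)) := Nat.mul_le_mul_left _ (Nat.mul_le_mul_left _ h1)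
      _ = X ^ 2600 * (2 * (2 * dn lam M)) := by rw [mul_left_comm]
      _ = X ^ 2600 * (4 * dn lam M) := by congr 1; omega
  exact Nat.le_of_mul_le_mul_left h2 (by positivity)

/-- `log a` is small -/
lemma log_small {a X : ℕ} (ha : 1 ≤ a) (hX : 10 ^ 12 * (1 + Real.log a) ^ 7 ≤ X) :
    (10 : ℝ) ^ 12 ≤ X ∧ 10 ^ 12 * Real.log a ≤ X := by
  have h0 : 0 ≤ Real.log a := Real.log_nonneg (by exact_mod_cast ha)
  have h1 : 1 + Real.log a ≤ (1 + Real.log a) ^ 7 :=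
    le_self_pow₀ (by linarith) (by norm_num)
  constructor <;> nlinarith

/-- the numeric condition on the tail -/
lemma h13_of {a X K N : ℕ} {c : ℕ} (D : ℕ) (hX12 : (10 : ℝ) ^ 12 ≤ X)
    (hlog : 10 ^ 12 * Real.log a ≤ X) (ha : 1 ≤ a) (hN : N ≤ X ^ 2 * a)
    (hK : K = 750 * X ^ c) (hc : c ≤ 9) (hD : a * X ^ 3400 ≤ 4 * D) :
    100 * (N : ℝ) * K * Real.log a ≤ D := by
  have hx : (1 : ℝ) ≤ X := by linarith
  have h0 : 0 ≤ Real.log a := Real.log_nonneg (by exact_mod_cast ha)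
  have hN' : (N : ℝ) ≤ (X : ℝ) ^ 2 * a := by exact_mod_cast hN
  have hK' : (K : ℝ) ≤ 750 * (X : ℝ) ^ 9 := by
    rw [hK]
    push_cast
    exact mul_le_mul_of_nonneg_left (pow_le_pow_right₀ hx hc) (by norm_num)
  have hD' : (a : ℝ) * (X : ℝ) ^ 3400 ≤ 4 * D := by exact_mod_cast hD
  have hN0 : (0 : ℝ) ≤ N := Nat.cast_nonneg _
  have hK0 : (0 : ℝ) ≤ K := Nat.cast_nonneg _
  have ha0 : (0 : ℝ) ≤ a := Nat.cast_nonneg _
  have h1 : (N : ℝ) * K ≤ ((X : ℝ) ^ 2 * a) * (750 * (X : ℝ) ^ 9) :=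
    mul_le_mul hN' hK' hK0 (by positivity)
  have h2 : (N : ℝ) * K * (10 ^ 12 * Real.log a) ≤
      (((X : ℝ) ^ 2 * a) * (750 * (X : ℝ) ^ 9)) * X :=
    mul_le_mul h1 hlog (by positivity) (by positivity)
  have h3 : (((X : ℝ) ^ 2 * a) * (750 * (X : ℝ) ^ 9)) * X = 750 * (a * (X : ℝ) ^ 12) := by ring
  have h4 : (a : ℝ) * (X : ℝ) ^ 12 ≤ a * (X : ℝ) ^ 3400 :=
    mul_le_mul_of_nonneg_left (pow_le_pow_right₀ hx (by norm_num)) ha0
  have h5 : (0 : ℝ) ≤ (N : ℝ) * K * Real.log a := by positivity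
  nlinarith

/-- powers of `X` against `a` -/
lemma pow_le_a {a X : ℕ} (hX : 1 ≤ X) (ha : X ^ 20000 ≤ a) (i : ℕ) (hi : i ≤ 20000) :
    X ^ i ≤ a := (Nat.pow_le_pow_right hX hi).trans ha

/-- `lam_1 ≥ 12 a ^ 2 X ^ 2`: the parameters are `a0 = a`, `b0 = b`. -/
lemma caseA (hL : LBL) (hD : AsmD) {a b n X R : ℕ} {lam : Fin n → ℕ} (hy : HyR a b n X R lam)
    (hd : dn lam 2 * X ^ 100 < a ^ 2) (hl : 12 * a ^ 2 * X ^ 2 ≤ ex lam 1) :
    plethMult a b n lam ≤ plethMult b a n lam := by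
  obtain ⟨⟨hanti, hsum, hpos, hna, hb2, hbX, haX, hXlog, hbD, ha1⟩, hR3, hRn, hRX, hs, hD2⟩ := hy
  have ha0 : 1 ≤ a := by
    rcases Nat.eq_zero_or_pos a with h | h
    · subst h
      omega
    · exact h
  obtain ⟨hx12, hlog⟩ := log_small ha0 hXlog
  have hX12 : 10 ^ 12 ≤ X := by exact_mod_cast hx12
  have hX1 : 1 ≤ X := by omega
  have hX0 : 0 < X := by omega
  have hXa := pow_le_a hX1 haX 4 (by norm_num)
  have hXX : X ≤ X ^ 2 := Nat.le_self_pow (by norm_num) X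
  have hX2X : X ^ 2 * X = X ^ 3 := by ring
  have hX3X : X ^ 3 * X = X ^ 4 := by ring
  have hX23 : 10 ^ 12 * X ^ 2 ≤ X ^ 3 := by
    rw [← hX2X, mul_comm]
    exact Nat.mul_le_mul_left _ hX12
  have hX34 : X ^ 3 ≤ X ^ 4 := Nat.pow_le_pow_right hX1 (by norm_num)
  have hX313 : 2 * (2 + X ^ 3) ≤ X ^ 13 := by
    have e1 : X ^ 3 * X ≤ X ^ 13 := by
      rw [← pow_succ]
      exact Nat.pow_le_pow_right hX1 (by norm_num)
    have e2 : X ^ 3 * 4 ≤ X ^ 3 * X := Nat.mul_le_mul_left _ (by omega)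
    omega
  have h6000 : 6000 ≤ a := by omega
  obtain ⟨P, hP⟩ : ∃ P, P = a / 1500 := ⟨_, rfl⟩
  have hP1 : 1000 * P ≤ a := by omega
  have hP2 : a ≤ 2000 * P := by omega
  have hP3 : 1500 * P ≤ a := by omega
  have hNle : 750 * X ^ 2 * P * 2 ≤ X ^ 2 * a := by
    calc 750 * X ^ 2 * P * 2 = X ^ 2 * (1500 * P) := by ring
      _ ≤ X ^ 2 * a := Nat.mul_le_mul_left _ hP3
  have hNge : X ^ 2 * a ≤ 2 * (750 * X ^ 2 * P * 2) := by
    calc X ^ 2 * a ≤ X ^ 2 * (3000 * P) := Nat.mul_le_mul_left _ (by omega)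
      _ = 2 * (750 * X ^ 2 * P * 2) := by ring
  have h16 : 10 ^ 12 * a ≤ X ^ 2 * a := Nat.mul_le_mul_right _ (by omega)
  have haN : a * (750 * X ^ 2 * P * 2) ≤ a ^ 2 * X ^ 2 := by
    calc a * (750 * X ^ 2 * P * 2) ≤ a * (X ^ 2 * a) := Nat.mul_le_mul_left _ hNle
      _ = a ^ 2 * X ^ 2 := by ring
  have haN2 : a ^ 2 * X ^ 2 ≤ 2 * (a * (750 * X ^ 2 * P * 2)) := by
    calc a ^ 2 * X ^ 2 = a * (X ^ 2 * a) := by ring
      _ ≤ a * (2 * (750 * X ^ 2 * P * 2)) := Nat.mul_le_mul_left _ hNge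
      _ = 2 * (a * (750 * X ^ 2 * P * 2)) := by ring
  have ha2 : a ^ 2 * 10 ^ 12 ≤ a ^ 2 * X ^ 2 := Nat.mul_le_mul_left _ (by omega)
  have hx1 : (1 : ℝ) ≤ X := by linarith
  have hh0 : 0 ≤ Real.log a := Real.log_nonneg (by exact_mod_cast ha0)
  refine finish hL hD (a0 := a) (b0 := b) (K := 750 * X ^ 2) (P := P) (L := X ^ 3)
    (N := 750 * X ^ 2 * P * 2) hanti hsum (by omega) hna (by omega) hb2 hanti hsum le_rfl le_rfl
    (fun _ _ => rfl) rfl (by omega) hP1 hP2 (by omega) (by omega) (by omega) hb2 ?_ ?_ ?_ ?_ ?_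
    ?_ ?_
  · have e1 : 12 * a ^ 2 * X ^ 2 = 12 * (a ^ 2 * X ^ 2) := by ring
    omega
  · have e1 : 12 * a ^ 2 * X ^ 2 = 12 * (a ^ 2 * X ^ 2) := by ring
    have e2 : X ^ 2 * a ≤ a ^ 2 * X ^ 2 := by
      calc X ^ 2 * a ≤ X ^ 2 * (a * a) := Nat.mul_le_mul_left _ (Nat.le_mul_self a)
        _ = a ^ 2 * X ^ 2 := by ring
    omega
  · have e1 : dn lam 2 ≤ dn lam 2 * X ^ 100 := Nat.le_mul_of_pos_right _ (by positivity)
    omega
  · push_cast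
    nlinarith
  · push_cast
    have e1 : (X : ℝ) ^ 2 * (10 ^ 12 * Real.log a) ≤ (X : ℝ) ^ 2 * X :=
      mul_le_mul_of_nonneg_left hlog (by positivity)
    nlinarith [mul_nonneg (sq_nonneg (X : ℝ)) hh0]
  · exact h13_of (c := 2) _ hx12 hlog ha0 hNle rfl (by norm_num)
      (tail_big hanti hX0 hs hX313 hD2 hbX hbD)
  · have e1 : ((X ^ 2 * a : ℕ) : ℝ) ≤ ((2 * (750 * X ^ 2 * P * 2) : ℕ) : ℝ) := by
      exact_mod_cast hNge
    push_cast at e1 ⊢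
    have e2 : (a : ℝ) * (10 ^ 12 * Real.log a) ≤ a * X :=
      mul_le_mul_of_nonneg_left hlog (Nat.cast_nonneg _)
    have e3 : (a : ℝ) * X ≤ (X : ℝ) ^ 2 * a := by
      rw [mul_comm]
      exact mul_le_mul_of_nonneg_right (le_self_pow₀ hx1 (by norm_num)) (Nat.cast_nonneg _)
    have e4 : 0 ≤ (a : ℝ) * Real.log a := by positivity
    nlinarith

/-- the numbers of case B -/
lemma numB {a b X D l1 P : ℕ} (hX : 10 ^ 12 ≤ X) (haX : X ^ 20 * X ^ 20 ≤ a)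
    (hbX : a * X ^ 10 ≤ b) (hd : D * X ^ 100 < a ^ 2) (hl : l1 < 12 * a ^ 2 * X ^ 2)
    (hw : a ^ 2 ≤ (l1 + D) * X ^ 4) (hP : P = a / (1500 * X ^ 7)) :
    1500 * P ≤ a ∧ 100 * a * X ^ 9 ≤ b ∧ 8 * a ≤ 750 * X ^ 9 * P * 2 ∧
    30 * (750 * X ^ 9) + 40 ≤ 1500 * P ∧ 4 * (1500 * P) ≤ 750 * X ^ 9 * P * 2 ∧
    100 * a * X ^ 9 ≤ (1500 * P) ^ 2 ∧ 3 * (1500 * P * (750 * X ^ 9 * P * 2)) ≤ l1 ∧
    2 * (100 * a * X ^ 9) + 2 * (750 * X ^ 9 * P * 2) + 1500 * P * (750 * X ^ 9 * P * 2) ≤ l1 ∧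
    8 * D ≤ 1500 * P * (750 * X ^ 9 * P * 2) ∧ 750 * X ^ 9 * P * 2 ≤ X ^ 2 * a ∧
    X ^ 2 * a ≤ 2 * (750 * X ^ 9 * P * 2) ∧
    l1 + D + l1 ≤ 1500 * P * (100 * a * X ^ 9) := by
  have hX1 : 1 ≤ X := by omega
  have hX0 : 0 < X := by omega
  have hpow : ∀ i j : ℕ, i ≤ j → X ^ i ≤ X ^ j := fun i j h => Nat.pow_le_pow_right hX1 h
  have hXa : ∀ i : ℕ, i ≤ 40 → X ^ i ≤ a := fun i hi =>
    (hpow i 40 hi).trans (by rw [← pow_add] at haX; exact haX)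
  -- the number `a0`
  have f0 : 1500 * X ^ 7 * P ≤ a := by
    rw [hP]
    exact Nat.mul_div_le a _
  have f1 : a < 1500 * X ^ 7 * P + 1500 * X ^ 7 := by
    have := Nat.lt_mul_div_succ a (show 0 < 1500 * X ^ 7 by positivity)
    rw [← hP] at this
    calc a < 1500 * X ^ 7 * (P + 1) := this
      _ = 1500 * X ^ 7 * P + 1500 * X ^ 7 := by ring
  obtain ⟨s, hs⟩ : ∃ s, s = 1500 * P := ⟨_, rfl⟩
  have e1 : 1500 * X ^ 7 * P = X ^ 7 * s := by rw [hs]; ring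
  have e2 : 750 * X ^ 9 * P * 2 = X ^ 9 * s := by rw [hs]; ring
  rw [e1] at f0 f1
  rw [e2, ← hs]
  have e3 : 1500 * X ^ 7 * 2 ≤ X ^ 8 := by
    calc 1500 * X ^ 7 * 2 = X ^ 7 * 3000 := by ring
      _ ≤ X ^ 7 * X := Nat.mul_le_mul_left _ (by omega)
      _ = X ^ 8 := by ring
  have f2 : a ≤ 2 * (X ^ 7 * s) := by
    have := hXa 8 (by norm_num)
    omega
  -- powers against `s`
  have hXs : ∀ i : ℕ, i ≤ 33 → X ^ i ≤ 2 * s := by
    intro i hi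
    have e4 : X ^ 7 * X ^ i ≤ X ^ 7 * (2 * s) := by
      calc X ^ 7 * X ^ i = X ^ (7 + i) := (pow_add _ _ _).symm
        _ ≤ a := hXa _ (by omega)
        _ ≤ 2 * (X ^ 7 * s) := f2
        _ = X ^ 7 * (2 * s) := by ring
    exact Nat.le_of_mul_le_mul_left e4 (by positivity)
  have hsa : s ≤ a := (Nat.le_mul_of_pos_left s (by positivity)).trans f0
  have g1 : X ^ 9 * s ≤ X ^ 2 * a := by
    calc X ^ 9 * s = X ^ 2 * (X ^ 7 * s) := by ring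
      _ ≤ X ^ 2 * a := Nat.mul_le_mul_left _ f0
  have g2 : X ^ 2 * a ≤ 2 * (X ^ 9 * s) := by
    calc X ^ 2 * a ≤ X ^ 2 * (2 * (X ^ 7 * s)) := Nat.mul_le_mul_left _ f2
      _ = 2 * (X ^ 9 * s) := by ring
  have hX2 : 10 ^ 12 ≤ X ^ 2 := hX.trans (Nat.le_self_pow (by norm_num) X)
  have g3 : 10 ^ 12 * a ≤ X ^ 2 * a := Nat.mul_le_mul_right _ hX2
  -- `T = X ^ 14 s ^ 2`
  have t1 : X ^ 14 * s ^ 2 ≤ a ^ 2 := by
    calc X ^ 14 * s ^ 2 = (X ^ 7 * s) ^ 2 := by ring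
      _ ≤ a ^ 2 := Nat.pow_le_pow_left f0 2
  have t2 : a ^ 2 ≤ 4 * (X ^ 14 * s ^ 2) := by
    calc a ^ 2 ≤ (2 * (X ^ 7 * s)) ^ 2 := Nat.pow_le_pow_left f2 2
      _ = 4 * (X ^ 14 * s ^ 2) := by ring
  -- the second row
  have hl2 : a ^ 2 ≤ 2 * X ^ 4 * l1 := by
    have e4 : D * X ^ 4 * 2 ≤ a ^ 2 := by
      calc D * X ^ 4 * 2 ≤ D * X ^ 4 * X := Nat.mul_le_mul_left _ (by omega)
        _ = D * X ^ 5 := by ring
        _ ≤ D * X ^ 100 := Nat.mul_le_mul_left _ (hpow _ _ (by norm_num))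
        _ ≤ a ^ 2 := hd.le
    have e5 : (l1 + D) * X ^ 4 = X ^ 4 * l1 + D * X ^ 4 := by ring
    have e6 : 2 * X ^ 4 * l1 = 2 * (X ^ 4 * l1) := by ring
    omega
  have hS : 1500 * P * (X ^ 9 * s) = X ^ 9 * s ^ 2 := by rw [← hs]; ring
  have hS' : s * (X ^ 9 * s) = X ^ 9 * s ^ 2 := by ring
  rw [hS']
  have q1 : 2 * X ^ 4 * (X ^ 9 * s ^ 2) * 100 ≤ a ^ 2 := by
    calc 2 * X ^ 4 * (X ^ 9 * s ^ 2) * 100 = X ^ 13 * s ^ 2 * 200 := by ring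
      _ ≤ X ^ 13 * s ^ 2 * X := Nat.mul_le_mul_left _ (by omega)
      _ = X ^ 14 * s ^ 2 := by ring
      _ ≤ a ^ 2 := t1
  have q2 : 2 * X ^ 4 * (100 * a * X ^ 9) * 100 ≤ a ^ 2 := by
    calc 2 * X ^ 4 * (100 * a * X ^ 9) * 100 = a * (X ^ 13 * 20000) := by ring
      _ ≤ a * (X ^ 13 * X) := Nat.mul_le_mul_left _ (Nat.mul_le_mul_left _ (by omega))
      _ = a * X ^ 14 := by ring
      _ ≤ a * a := Nat.mul_le_mul_left _ (hXa 14 (by norm_num))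
      _ = a ^ 2 := by ring
  have q3 : 2 * X ^ 4 * (X ^ 9 * s) * 100 ≤ a ^ 2 := by
    calc 2 * X ^ 4 * (X ^ 9 * s) * 100 = s * (X ^ 13 * 200) := by ring
      _ ≤ a * (X ^ 13 * X) := Nat.mul_le_mul hsa (Nat.mul_le_mul_left _ (by omega))
      _ = a * X ^ 14 := by ring
      _ ≤ a * a := Nat.mul_le_mul_left _ (hXa 14 (by norm_num))
      _ = a ^ 2 := by ring
  have hX4 : 0 < 2 * X ^ 4 := by positivity
  refine ⟨hsa, ?_, by omega, ?_, ?_, ?_, ?_, ?_, ?_, g1, g2, ?_⟩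
  · calc 100 * a * X ^ 9 = a * (X ^ 9 * 100) := by ring
      _ ≤ a * (X ^ 9 * X) := Nat.mul_le_mul_left _ (Nat.mul_le_mul_left _ (by omega))
      _ = a * X ^ 10 := by ring
      _ ≤ b := hbX
  · have r1 := hXs 10 (by norm_num)
    have r2 : X ^ 9 * 10 ^ 12 ≤ X ^ 10 := by
      calc X ^ 9 * 10 ^ 12 ≤ X ^ 9 * X := Nat.mul_le_mul_left _ hX
        _ = X ^ 10 := by ring
    have r3 : 1 ≤ X ^ 9 := Nat.one_le_pow _ _ hX0
    omega
  · exact Nat.mul_le_mul_right _ ((show 4 ≤ X by omega).trans (Nat.le_self_pow (by norm_num) X))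
  · have r1 := hXs 17 (by norm_num)
    calc 100 * a * X ^ 9 ≤ 100 * (2 * (X ^ 7 * s)) * X ^ 9 :=
          Nat.mul_le_mul_right _ (Nat.mul_le_mul_left _ f2)
      _ = (X ^ 16 * 200) * s := by ring
      _ ≤ s * s := by
          apply Nat.mul_le_mul_right
          have r2 : X ^ 16 * 400 ≤ X ^ 17 := by
            calc X ^ 16 * 400 ≤ X ^ 16 * X := Nat.mul_le_mul_left _ (by omega)
              _ = X ^ 17 := by ring
          omega
      _ = s ^ 2 := by ring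
  · have r1 : 2 * X ^ 4 * (3 * (X ^ 9 * s ^ 2)) ≤ 2 * X ^ 4 * l1 := by
      have r2 : 2 * X ^ 4 * (3 * (X ^ 9 * s ^ 2)) = 3 * (2 * X ^ 4 * (X ^ 9 * s ^ 2)) := by ring
      omega
    exact Nat.le_of_mul_le_mul_left r1 hX4
  · have r1 : 2 * X ^ 4 * (2 * (100 * a * X ^ 9) + 2 * (X ^ 9 * s) + X ^ 9 * s ^ 2) ≤
        2 * X ^ 4 * l1 := by
      have r2 : 2 * X ^ 4 * (2 * (100 * a * X ^ 9) + 2 * (X ^ 9 * s) + X ^ 9 * s ^ 2) =
        2 * (2 * X ^ 4 * (100 * a * X ^ 9)) + 2 * (2 * X ^ 4 * (X ^ 9 * s)) +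
          2 * X ^ 4 * (X ^ 9 * s ^ 2) := by ring
      omega
    exact Nat.le_of_mul_le_mul_left r1 hX4
  · have r1 : X ^ 5 * (D * X ^ 95) ≤ X ^ 5 * (4 * (X ^ 9 * s ^ 2)) := by
      calc X ^ 5 * (D * X ^ 95) = D * X ^ 100 := by ring
        _ ≤ a ^ 2 := hd.le
        _ ≤ 4 * (X ^ 14 * s ^ 2) := t2
        _ = X ^ 5 * (4 * (X ^ 9 * s ^ 2)) := by ring
    have r2 := Nat.le_of_mul_le_mul_left r1 (by positivity)
    have r3 : D * 10 ^ 12 ≤ D * X ^ 95 :=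
      Nat.mul_le_mul_left _ (hX.trans (Nat.le_self_pow (by norm_num) X))
    omega
  · have r1 : D ≤ a ^ 2 := by
      have : D ≤ D * X ^ 100 := Nat.le_mul_of_pos_right _ (by positivity)
      omega
    have r2 : 50 * (a ^ 2 * X ^ 2) ≤ s * (100 * a * X ^ 9) := by
      calc 50 * (a ^ 2 * X ^ 2) = 50 * a * X ^ 2 * a := by ring
        _ ≤ 50 * a * X ^ 2 * (2 * (X ^ 7 * s)) := Nat.mul_le_mul_left _ f2
        _ = s * (100 * a * X ^ 9) := by ring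
    have r3 : a ^ 2 ≤ a ^ 2 * X ^ 2 := Nat.le_mul_of_pos_right _ (by positivity)
    have r4 : 12 * a ^ 2 * X ^ 2 = 12 * (a ^ 2 * X ^ 2) := by ring
    omega

/-- the smaller shape -/
def nuB {n : ℕ} (lam : Fin n → ℕ) (M : ℕ) : Fin n → ℕ :=
  fun i => if (i : ℕ) = 0 then M - dn lam 1 else lam i

lemma nuB_eq {n : ℕ} (lam : Fin n → ℕ) (M : ℕ) (i : Fin n) (hi : 1 ≤ (i : ℕ)) :
    nuB lam M i = lam i := by
  unfold nuB
  rw [if_neg (by omega)]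

lemma nuB_sum {n : ℕ} (lam : Fin n → ℕ) (M : ℕ) (hn : 0 < n) (hM : dn lam 1 ≤ M) :
    ∑ i, nuB lam M i = M := by
  obtain ⟨m, rfl⟩ : ∃ m, n = m + 1 := ⟨n - 1, by omega⟩
  have h1 : dn lam 1 = ∑ i : Fin m, lam i.succ := by
    unfold dn
    rw [Fin.sum_univ_succ]
    simp
  rw [Fin.sum_univ_succ]
  have h2 : ∑ i : Fin m, nuB lam M i.succ = dn lam 1 := by
    rw [h1]
    exact Finset.sum_congr rfl fun i _ => nuB_eq lam M _ (by simp)
  rw [h2]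
  simp only [nuB, Fin.val_zero, if_true]
  omega

lemma nuB_anti {n : ℕ} {lam : Fin n → ℕ} (h : Antitone lam) (M : ℕ)
    (hM : dn lam 1 + ex lam 1 ≤ M) : Antitone (nuB lam M) := by
  intro i j hij
  have hij' : (i : ℕ) ≤ j := hij
  unfold nuB
  split_ifs with h1 h2 h2
  · exact le_rfl
  · omega
  · have h3 : lam j ≤ ex lam 1 := by
      rw [← ex_of_lt lam j.2]
      exact ex_anti h (by omega)
    omega
  · exact h hij

/-- `lam_1 < 12 a ^ 2 X ^ 2`: smaller parameters. -/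
lemma caseB (hL : LBL) (hD : AsmD) {a b n X R : ℕ} {lam : Fin n → ℕ} (hy : HyR a b n X R lam)
    (hw : a ^ 2 ≤ dn lam 1 * X ^ 4) (hd : dn lam 2 * X ^ 100 < a ^ 2)
    (hl : ex lam 1 < 12 * a ^ 2 * X ^ 2) :
    plethMult a b n lam ≤ plethMult b a n lam := by
  obtain ⟨⟨hanti, hsum, hpos, hna, hb2, hbX, haX, hXlog, hbD, ha1⟩, hR3, hRn, hRX, hs, hD2⟩ := hy
  have ha0 : 1 ≤ a := by
    rcases Nat.eq_zero_or_pos a with h | h
    · subst h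
      omega
    · exact h
  obtain ⟨hx12, hlog⟩ := log_small ha0 hXlog
  have hX12 : 10 ^ 12 ≤ X := by exact_mod_cast hx12
  have hX1 : 1 ≤ X := by omega
  have hX0 : 0 < X := by omega
  have hw1 : dn lam 1 = ex lam 1 + dn lam 2 := dn_succ lam 1
  have haX' : X ^ 20 * X ^ 20 ≤ a := by
    rw [← pow_add]
    exact pow_le_a hX1 haX _ (by norm_num)
  have hbX' : a * X ^ 10 ≤ b :=
    (Nat.mul_le_mul_left _ (Nat.pow_le_pow_right hX1 (by norm_num))).trans hbX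
  obtain ⟨P, hP⟩ : ∃ P, P = a / (1500 * X ^ 7) := ⟨_, rfl⟩
  obtain ⟨c1, c2, c3, c4, c5, c6, c7, c8, c9, c10, c11, c12⟩ :=
    numB hX12 haX' hbX' hd hl (by rw [← hw1]; exact hw) hP
  have hX1013 : 2 * (2 + X ^ 10) ≤ X ^ 13 := by
    have e1 : X ^ 10 * X ≤ X ^ 13 := by
      rw [← pow_succ]
      exact Nat.pow_le_pow_right hX1 (by norm_num)
    have e2 : X ^ 10 * 10 ≤ X ^ 10 * X := Nat.mul_le_mul_left _ (by omega)
    have e3 : 1 ≤ X ^ 10 := Nat.one_le_pow _ _ hX0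
    omega
  have hx1 : (1 : ℝ) ≤ X := by linarith
  have hx9 : (1 : ℝ) ≤ (X : ℝ) ^ 9 := one_le_pow₀ hx1
  have hX9 : 1 ≤ X ^ 9 := Nat.one_le_pow _ _ hX0
  have hXX9 : X ≤ X ^ 9 := Nat.le_self_pow (by norm_num) X
  have hh0 : 0 ≤ Real.log a := Real.log_nonneg (by exact_mod_cast ha0)
  have hM : dn lam 1 + ex lam 1 ≤ 1500 * P * (100 * a * X ^ 9) := by omega
  refine finish hL hD (a0 := 1500 * P) (b0 := 100 * a * X ^ 9) (K := 750 * X ^ 9) (P := P)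
    (L := X ^ 10) (N := 750 * X ^ 9 * P * 2) hanti hsum (by omega) hna (by omega) hb2
    (nuB_anti hanti _ hM) (nuB_sum lam _ (by omega) (by omega)) c1 c2 (nuB_eq lam _) rfl c3
    (by omega) (by omega) (by omega) c4 c5 c6 c7 c8 c9 ?_ ?_ ?_ ?_
  · push_cast
    have e1 : (X : ℝ) ≤ (X : ℝ) ^ 9 := le_self_pow₀ hx1 (by norm_num)
    nlinarith
  · push_cast
    have e1 : (X : ℝ) ^ 9 * (10 ^ 12 * Real.log a) ≤ (X : ℝ) ^ 9 * X :=
      mul_le_mul_of_nonneg_left hlog (by positivity)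
    have e2 : (X : ℝ) ^ 9 * X = (X : ℝ) ^ 10 := by ring
    have e3 : 0 ≤ (X : ℝ) ^ 9 * Real.log a := by positivity
    nlinarith
  · exact h13_of (c := 9) _ hx12 hlog ha0 c10 rfl (by norm_num)
      (tail_big hanti hX0 hs hX1013 hD2 hbX hbD)
  · have e1 : ((X ^ 2 * a : ℕ) : ℝ) ≤ ((2 * (750 * X ^ 9 * P * 2) : ℕ) : ℝ) := by
      exact_mod_cast c11
    push_cast at e1 ⊢
    have e2 : (a : ℝ) * (10 ^ 12 * Real.log a) ≤ a * X :=
      mul_le_mul_of_nonneg_left hlog (Nat.cast_nonneg _)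
    have e3 : (a : ℝ) * X ≤ (X : ℝ) ^ 2 * a := by
      rw [mul_comm]
      exact mul_le_mul_of_nonneg_right (le_self_pow₀ hx1 (by norm_num)) (Nat.cast_nonneg _)
    have e4 : 0 ≤ (a : ℝ) * Real.log a := by positivity
    nlinarith

/-- **(P8.2)** -/
theorem heavy2 (hL : LBL) (hD : AsmD) : Heavy2 := by
  intro a b n X R lam hy hw hd
  rcases lt_or_ge (ex lam 1) (12 * a ^ 2 * X ^ 2) with h | h
  · exact caseB hL hD hy hw hd h
  · exact caseA hL hD hy hd h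

end Vale.Agent.P181.PL8b
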